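import Mathlib

namespace Vale.Agent.Lib.P196

universe u

/-- Elementary amenable groups (Day's class `EG`), as an inductive predicate on groups living in
a fixed universe: the smallest class of groups that contains the finite groups and the abelian
groups and is closed under subgroups (here: sources of injective homomorphisms, which also gives
closure under isomorphism), quotients (targets of surjective homomorphisms), extensions and
directed unions of subgroups. -/
inductive ElemAmenable : (G : Type u) → [Group G] → Prop
  | of_finite (G : Type u) [Group G] [Finite G] : ElemAmenable G
  | of_comm (G : Type u) [Group G] (h : ∀ a b : G, a * b = b * a) : ElemAmenable G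
  | of_injective (G H : Type u) [Group G] [Group H] (f : H →* G)
      (hf : Function.Injective f) : ElemAmenable G → ElemAmenable H
  | of_surjective (G H : Type u) [Group G] [Group H] (f : G →* H)
      (hf : Function.Surjective f) : ElemAmenable G → ElemAmenable H
  | of_extension (G : Type u) [Group G] (N : Subgroup G) [N.Normal] :
      ElemAmenable N → ElemAmenable (G ⧸ N) → ElemAmenable G
  | of_directedUnion (G : Type u) [Group G] (F : Set (Subgroup G))
      (hdir : DirectedOn (· ≤ ·) F) (hcov : ∀ g : G, ∃ H ∈ F, g ∈ H) :
      (∀ H ∈ F, ElemAmenable H) → ElemAmenable G

/-- `LocallyEmbeddableInto C G`: every finite subset `E` of `G` admits a map into some group `H`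
of the class `C` that is injective on `E` and preserves every product `g * h` with
`g, h, g * h ∈ E`.  For `C` the class of finite groups this is the property LEF. -/
def LocallyEmbeddableInto (C : ∀ (H : Type u) [Group H], Prop) (G : Type u) [Group G] : Prop :=
  ∀ E : Finset G, ∃ (H : Type u) (_ : Group H), C H ∧ ∃ φ : G → H,
    Set.InjOn φ (E : Set G) ∧ ∀ g ∈ E, ∀ h ∈ E, g * h ∈ E → φ (g * h) = φ g * φ h

/-- `S` is a section of `G`: a quotient of a subgroup, i.e. there are a group `H`, an injective
homomorphism `H →* G` and a surjective homomorphism `H →* S`. -/
def IsSection (S : Type u) [Group S] (G : Type u) [Group G] : Prop :=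
  ∃ (H : Type u) (_ : Group H) (i : H →* G) (f : H →* S),
    Function.Injective i ∧ Function.Surjective f

/-- `G` has no infinite finitely generated simple section. -/
def NoInfSimpleSection (G : Type u) [Group G] : Prop :=
  ∀ (S : Type u) [Group S], Group.FG S → IsSimpleGroup S → IsSection S G → Finite S

end Vale.Agent.Lib.P196
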