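import Vale.Agent.Lib.P196.helper45.Section

namespace Vale.Agent.Lib.P196

universe u

open Function

/-- A finitely presented group that is locally embeddable into a class `C` is residually `C`:
every nontrivial element survives in some homomorphism to a group of the class. -/
theorem exists_hom_ne_one {G : Type u} [Group G] [hfp : Group.IsFinitelyPresented G]
    (C : ∀ (H : Type u) [Group H], Prop) (hLE : LocallyEmbeddableInto C G) (g₀ : G)
    (hg : g₀ ≠ 1) : ∃ (H : Type u) (_ : Group H), C H ∧ ∃ ψ : G →* H, ψ g₀ ≠ 1 := by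
  classical
  obtain ⟨n, φ, hφ, R, hRfin, hR⟩ := hfp.out
  obtain ⟨w₀, rfl⟩ := hφ g₀
  -- the finite list of words whose prefixes we need
  let Ls : Finset (List (Fin n × Bool)) :=
    insert w₀.toWord (hRfin.toFinset.image FreeGroup.toWord)
  let P : Finset (List (Fin n × Bool)) :=
    (Ls.biUnion (fun L => (Finset.range (L.length + 1)).image (fun k => L.take k))) ∪
      (Finset.univ.image (fun p : Fin n × Bool => [p])) ∪ {[]}
  let E : Finset G := P.image (fun L => φ (FreeGroup.mk L))
  obtain ⟨H, instH, hC, θ, hinj, hmul⟩ := hLE E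
  have memE : ∀ L ∈ P, φ (FreeGroup.mk L) ∈ E := fun L hL => Finset.mem_image_of_mem _ hL
  have hnilP : ([] : List (Fin n × Bool)) ∈ P := by
    simp [P]
  have hletP : ∀ p : Fin n × Bool, [p] ∈ P := by
    intro p
    simp [P]
  have hprefP : ∀ L ∈ Ls, ∀ k, k ≤ L.length → L.take k ∈ P := by
    intro L hL k hk
    have : L.take k ∈ Ls.biUnion
        (fun L => (Finset.range (L.length + 1)).image (fun k => L.take k)) := by
      rw [Finset.mem_biUnion]
      exact ⟨L, hL, Finset.mem_image.mpr ⟨k, Finset.mem_range.mpr (by omega), rfl⟩⟩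
    simp only [P, Finset.mem_union]
    exact Or.inl (Or.inl this)
  have hmk1 : FreeGroup.mk ([] : List (Fin n × Bool)) = 1 := rfl
  have h1E : (1 : G) ∈ E := by
    have := memE [] hnilP
    rwa [hmk1, map_one] at this
  have hθ1 : θ 1 = 1 := by
    have := hmul 1 h1E 1 h1E (by rw [mul_one]; exact h1E)
    rw [mul_one] at this
    exact (mul_eq_left.mp this.symm)
  -- the homomorphism from the free group
  let ψ' : FreeGroup (Fin n) →* H := FreeGroup.lift (fun i => θ (φ (FreeGroup.of i)))
  have hlet : ∀ p : Fin n × Bool, ψ' (FreeGroup.mk [p]) = θ (φ (FreeGroup.mk [p])) := by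
    rintro ⟨i, b⟩
    have htrue : ψ' (FreeGroup.mk [(i, true)]) = θ (φ (FreeGroup.mk [(i, true)])) := by
      change ψ' (FreeGroup.of i) = θ (φ (FreeGroup.of i))
      simp [ψ']
    cases b with
    | true => exact htrue
    | false =>
      have hinv : (FreeGroup.mk [(i, false)] : FreeGroup (Fin n)) =
          (FreeGroup.mk [(i, true)])⁻¹ := by
        rw [FreeGroup.inv_mk]; rfl
      have hprod : φ (FreeGroup.mk [(i, true)]) * φ (FreeGroup.mk [(i, false)]) = 1 := by
        rw [hinv, map_inv, mul_inv_cancel]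
      have h2 := hmul _ (memE _ (hletP (i, true))) _ (memE _ (hletP (i, false)))
        (by rw [hprod]; exact h1E)
      rw [hprod, hθ1] at h2
      have h3 : θ (φ (FreeGroup.mk [(i, false)])) = (θ (φ (FreeGroup.mk [(i, true)])))⁻¹ :=
        eq_inv_of_mul_eq_one_right h2.symm
      rw [h3, ← htrue, hinv, map_inv]
  have hpref : ∀ L ∈ Ls, ∀ k, k ≤ L.length →
      ψ' (FreeGroup.mk (L.take k)) = θ (φ (FreeGroup.mk (L.take k))) := by
    intro L hL k
    induction k with
    | zero =>
      intro _
      rw [List.take_zero, hmk1, map_one, map_one, hθ1]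
    | succ k ih =>
      intro hk
      have hk' : k < L.length := by omega
      have ih' := ih (by omega)
      rw [List.take_succ_eq_append_getElem hk', ← FreeGroup.mul_mk, map_mul, map_mul, ih',
        hlet]
      have hE3 : φ (FreeGroup.mk (L.take k)) * φ (FreeGroup.mk [L[k]]) ∈ E := by
        have := memE _ (hprefP L hL (k + 1) hk)
        rwa [List.take_succ_eq_append_getElem hk', ← FreeGroup.mul_mk, map_mul] at this
      exact (hmul _ (memE _ (hprefP L hL k (by omega))) _ (memE _ (hletP _)) hE3).symm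
  have hfull : ∀ w : FreeGroup (Fin n), w.toWord ∈ Ls → ψ' w = θ (φ w) := by
    intro w hw
    have := hpref _ hw w.toWord.length le_rfl
    rwa [List.take_length, FreeGroup.mk_toWord] at this
  have hker : φ.ker ≤ ψ'.ker := by
    rw [← hR]
    apply Subgroup.normalClosure_le_normal
    intro r hr
    have hrL : r.toWord ∈ Ls := by
      apply Finset.mem_insert_of_mem
      exact Finset.mem_image_of_mem _ (hRfin.mem_toFinset.mpr hr)
    have hφr : φ r = 1 := by
      have : r ∈ φ.ker := by rw [← hR]; exact Subgroup.subset_normalClosure hr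
      exact this
    change ψ' r = 1
    rw [hfull r hrL, hφr, hθ1]
  refine ⟨H, instH, hC, φ.liftOfSurjective hφ ⟨ψ', hker⟩, ?_⟩
  rw [MonoidHom.liftOfRightInverse_comp_apply]
  change ψ' w₀ ≠ 1
  have hw₀L : w₀.toWord ∈ Ls := Finset.mem_insert_self _ _
  rw [hfull w₀ hw₀L]
  intro hcontra
  have hw₀E : φ w₀ ∈ E := by
    have := memE _ (hprefP _ hw₀L w₀.toWord.length le_rfl)
    rwa [List.take_length, FreeGroup.mk_toWord] at this
  have := hinj (Finset.mem_coe.mpr hw₀E) (Finset.mem_coe.mpr h1E) (hcontra.trans hθ1.symm)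
  exact hg this

end Vale.Agent.Lib.P196
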