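import Vale.Agent.Lib.P196.helper45.LocalEmb

namespace Vale.Agent.Lib.P196

universe u

open Function

/-- A finitely presented simple group that is locally embeddable into a class of groups having
no infinite finitely generated simple section is finite. -/
theorem finite_of_locallyEmbeddable (G : Type u) [Group G] [hfp : Group.IsFinitelyPresented G]
    [hs : IsSimpleGroup G] (C : ∀ (H : Type u) [Group H], Prop)
    (hC : ∀ (H : Type u) [Group H], C H → NoInfSimpleSection H)
    (h : LocallyEmbeddableInto C G) : Finite G := by
  obtain ⟨g₀, hg₀⟩ := exists_ne (1 : G)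
  obtain ⟨H, instH, hCH, ψ, hψ⟩ := exists_hom_ne_one C h g₀ hg₀
  have hinj : Injective ψ := by
    rcases (inferInstance : ψ.ker.Normal).eq_bot_or_eq_top with hk | hk
    · exact (MonoidHom.ker_eq_bot_iff ψ).mp hk
    · exfalso
      apply hψ
      have : g₀ ∈ ψ.ker := by rw [hk]; trivial
      exact this
  have hfg : Group.FG G := by
    obtain ⟨n, φ, hφ, _⟩ := hfp.out
    exact Group.fg_of_surjective hφ
  exact hC H hCH G hfg hs ⟨G, inferInstance, ψ, MonoidHom.id G, hinj, surjective_id⟩

/-- A finitely presented simple group that is locally embeddable into elementary amenable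
groups is finite. -/
theorem finite_of_locallyEmbeddable_elemAmenable (G : Type u) [Group G]
    [Group.IsFinitelyPresented G] [IsSimpleGroup G]
    (h : LocallyEmbeddableInto ElemAmenable G) : Finite G :=
  finite_of_locallyEmbeddable G ElemAmenable (fun H _ hH => noInf_of_elemAmenable H hH) h

/-- Chou's theorem: a finitely generated simple elementary amenable group is finite. -/
theorem finite_of_simple_elemAmenable (G : Type u) [Group G] (hfg : Group.FG G)
    [hs : IsSimpleGroup G] (h : ElemAmenable G) : Finite G :=
  noInf_of_elemAmenable G h G hfg hs
    ⟨G, inferInstance, MonoidHom.id G, MonoidHom.id G, injective_id, surjective_id⟩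

end Vale.Agent.Lib.P196
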