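import Vale.Agent.Lib.P196.helper45.Defs

namespace Vale.Agent.Lib.P196

universe u

open Function

theorem noInf_of_finite (G : Type u) [Group G] [Finite G] : NoInfSimpleSection G := by
  intro S _ _ _ hsec
  obtain ⟨H, _, i, f, hi, hf⟩ := hsec
  have : Finite H := Finite.of_injective i hi
  exact Finite.of_surjective f hf

theorem finite_of_simple_comm (S : Type u) [Group S] (hs : IsSimpleGroup S)
    (hc : ∀ a b : S, a * b = b * a) : Finite S := by
  letI : CommGroup S := { ‹Group S› with mul_comm := hc }
  have hp : (Nat.card S).Prime := CommGroup.is_simple_iff_prime_card.mp hs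
  exact Nat.finite_of_card_ne_zero hp.ne_zero

theorem noInf_of_comm (G : Type u) [Group G] (h : ∀ a b : G, a * b = b * a) :
    NoInfSimpleSection G := by
  intro S _ _ hs hsec
  obtain ⟨H, _, i, f, hi, hf⟩ := hsec
  apply finite_of_simple_comm S hs
  intro a b
  obtain ⟨x, rfl⟩ := hf a
  obtain ⟨y, rfl⟩ := hf b
  have hxy : x * y = y * x := by
    apply hi
    rw [map_mul, map_mul, h]
  rw [← map_mul, ← map_mul, hxy]

theorem isSection_of_injective {S G H : Type u} [Group S] [Group G] [Group H] (j : H →* G)
    (hj : Injective j) (hs : IsSection S H) : IsSection S G := by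
  obtain ⟨K, _, i, f, hi, hf⟩ := hs
  exact ⟨K, inferInstance, j.comp i, f, hj.comp hi, hf⟩

theorem isSection_of_surjective {S G Q : Type u} [Group S] [Group G] [Group Q] (p : G →* Q)
    (hp : Surjective p) (hs : IsSection S Q) : IsSection S G := by
  obtain ⟨K, _, i, f, hi, hf⟩ := hs
  let e : K ≃* i.range := MonoidHom.ofInjective hi
  let r : (i.range.comap p) →* i.range := p.subgroupComap i.range
  have hr : Surjective r := MonoidHom.subgroupComap_surjective_of_surjective p i.range hp
  refine ⟨(i.range.comap p : Subgroup G), inferInstance, (i.range.comap p).subtype,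
    f.comp (e.symm.toMonoidHom.comp r), Subtype.coe_injective, ?_⟩
  exact hf.comp (e.symm.surjective.comp hr)

theorem noInf_of_injective (G H : Type u) [Group G] [Group H] (f : H →* G) (hf : Injective f)
    (hG : NoInfSimpleSection G) : NoInfSimpleSection H := by
  intro S _ hfg hs hsec
  exact hG S hfg hs (isSection_of_injective f hf hsec)

theorem noInf_of_surjective (G H : Type u) [Group G] [Group H] (f : G →* H)
    (hf : Surjective f) (hG : NoInfSimpleSection G) : NoInfSimpleSection H := by
  intro S _ hfg hs hsec
  exact hG S hfg hs (isSection_of_surjective f hf hsec)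

theorem noInf_of_extension (G : Type u) [Group G] (N : Subgroup G) [N.Normal]
    (hN : NoInfSimpleSection N) (hQ : NoInfSimpleSection (G ⧸ N)) : NoInfSimpleSection G := by
  intro S _ hfg hs hsec
  obtain ⟨H, _, i, f, hi, hf⟩ := hsec
  set N' : Subgroup H := N.comap i with hN'
  have : N'.Normal := Subgroup.Normal.comap inferInstance i
  have hM : (N'.map f).Normal := Subgroup.Normal.map inferInstance f hf
  rcases hM.eq_bot_or_eq_top with h | h
  · -- `f` kills `N'`: `S` is a section of `G ⧸ N`
    have hker : N' ≤ f.ker := by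
      intro x hx
      have : f x ∈ N'.map f := Subgroup.mem_map_of_mem f hx
      rw [h] at this
      exact this
    apply hQ S hfg hs
    refine ⟨H ⧸ N', inferInstance, QuotientGroup.map N' N i (le_refl _),
      QuotientGroup.lift N' f hker, ?_, ?_⟩
    · rw [injective_iff_map_eq_one]
      intro x hx
      induction x using QuotientGroup.induction_on with
      | H x =>
        rw [QuotientGroup.map_mk, QuotientGroup.eq_one_iff] at hx
        rw [QuotientGroup.eq_one_iff]
        exact hx
    · intro s
      obtain ⟨x, rfl⟩ := hf s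
      exact ⟨QuotientGroup.mk x, rfl⟩
  · -- `N'` maps onto `S`: `S` is a section of `N`
    apply hN S hfg hs
    refine ⟨N', inferInstance, i.subgroupComap N, f.comp N'.subtype, ?_, ?_⟩
    · intro x y hxy
      apply Subtype.ext
      apply hi
      exact congrArg Subtype.val hxy
    · intro s
      have hs' : s ∈ N'.map f := by rw [h]; trivial
      obtain ⟨x, hx, rfl⟩ := Subgroup.mem_map.mp hs'
      exact ⟨⟨x, hx⟩, rfl⟩

theorem exists_upper (G : Type u) [Group G] (F : Set (Subgroup G))
    (hdir : DirectedOn (· ≤ ·) F) (hne : F.Nonempty) (T : Finset G)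
    (hcov : ∀ g ∈ T, ∃ H ∈ F, g ∈ H) : ∃ K ∈ F, ∀ g ∈ T, g ∈ K := by
  classical
  induction T using Finset.induction_on with
  | empty =>
    obtain ⟨K, hK⟩ := hne
    exact ⟨K, hK, by simp⟩
  | insert a T _ ih =>
    obtain ⟨K, hK, hKT⟩ := ih (fun g hg => hcov g (Finset.mem_insert_of_mem hg))
    obtain ⟨L, hL, haL⟩ := hcov a (Finset.mem_insert_self a T)
    obtain ⟨M, hM, hKM, hLM⟩ := hdir K hK L hL
    refine ⟨M, hM, ?_⟩
    intro g hg
    rcases Finset.mem_insert.mp hg with rfl | hg
    · exact hLM haL
    · exact hKM (hKT g hg)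

theorem noInf_of_directedUnion (G : Type u) [Group G] (F : Set (Subgroup G))
    (hdir : DirectedOn (· ≤ ·) F) (hcov : ∀ g : G, ∃ H ∈ F, g ∈ H)
    (hF : ∀ H ∈ F, NoInfSimpleSection H) : NoInfSimpleSection G := by
  classical
  intro S _ hfg hs hsec
  obtain ⟨H, _, i, f, hi, hf⟩ := hsec
  obtain ⟨T, hT⟩ := Group.fg_def.mp hfg
  -- lift the generators
  let T' : Finset H := T.image (surjInv hf)
  have hne : F.Nonempty := by
    obtain ⟨K, hK, _⟩ := hcov 1
    exact ⟨K, hK⟩
  obtain ⟨K, hK, hKT⟩ := exists_upper G F hdir hne (T'.image i)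
    (fun g _ => hcov g)
  let H₀ : Subgroup H := Subgroup.closure (T' : Set H)
  have hH₀ : ∀ x ∈ H₀, i x ∈ K := by
    intro x hx
    have hle : H₀ ≤ K.comap i := by
      rw [Subgroup.closure_le]
      intro y hy
      exact hKT (i y) (Finset.mem_image_of_mem i hy)
    exact hle hx
  apply hF K hK S hfg hs
  refine ⟨H₀, inferInstance, (i.comp H₀.subtype).codRestrict K (fun x => hH₀ x x.2),
    f.comp H₀.subtype, ?_, ?_⟩
  · intro x y hxy
    apply Subtype.ext
    apply hi
    exact congrArg Subtype.val hxy
  · -- the range contains the generators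
    have hrange : (f.comp H₀.subtype).range = ⊤ := by
      rw [eq_top_iff, ← hT, Subgroup.closure_le]
      intro t ht
      have h1 : surjInv hf t ∈ H₀ :=
        Subgroup.subset_closure (Finset.mem_coe.mpr (Finset.mem_image_of_mem _ ht))
      exact ⟨⟨surjInv hf t, h1⟩, surjInv_eq hf t⟩
    intro s
    have : s ∈ (f.comp H₀.subtype).range := by rw [hrange]; trivial
    exact this

/-- Chou-type lemma: an elementary amenable group has no infinite finitely generated simple
section. -/
theorem noInf_of_elemAmenable (G : Type u) [Group G] (h : ElemAmenable G) :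
    NoInfSimpleSection G := by
  induction h with
  | of_finite G => exact noInf_of_finite G
  | of_comm G h => exact noInf_of_comm G h
  | of_injective G H f hf _ ih => exact noInf_of_injective G H f hf ih
  | of_surjective G H f hf _ ih => exact noInf_of_surjective G H f hf ih
  | of_extension G N _ _ ihN ihQ => exact noInf_of_extension G N ihN ihQ
  | of_directedUnion G F hdir hcov _ ih => exact noInf_of_directedUnion G F hdir hcov ih

end Vale.Agent.Lib.P196
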